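import Vale.Agent.P015.Main

namespace Vale.Agent.Results.P015.A_moat

open Vale.Agent.P015

/-- The Gaussian moat theorem. For every real `D` the connected components of the graph `G_D`
on the Gaussian primes are finite, with a bound on their size depending only on `D`, and there
is no infinite sequence of distinct Gaussian primes with steps of length at most `D`. -/
theorem result (D : ℝ) :
    (∃ B : ℕ, ∀ c : (moatGraph D).ConnectedComponent, c.supp.Finite ∧ c.supp.ncard ≤ B) ∧
    ¬ ∃ x : ℕ → GaussianInt, Function.Injective x ∧ (∀ n, Irreducible (x n)) ∧
      ∀ n, dist (x n : ℂ) (x (n + 1) : ℂ) ≤ D :=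
  final_stmt D

end Vale.Agent.Results.P015.A_moat
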